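import Vale.Agent.P092JF.Jf
import Vale.Agent.P092ST.Blocks

/-!
P092 (helper3), block B3, part JF: the drop lemma and the banded projection.
-/

set_option linter.all false

open scoped InnerProductSpace ENNReal ComplexConjugate
open MeasureTheory Filter Topology

namespace Vale.Agent.P092JF

open Vale.Agent.P092ST Vale.Agent.P092ST.Amb

variable {G Γ 𝒦 : Type} [Group G] [TopologicalSpace G] [Group Γ] [NormedAddCommGroup 𝒦]
  [InnerProductSpace ℂ 𝒦] [CompleteSpace 𝒦] {α : Type} [Fintype α] [Nonempty α]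
  {A : Amb G Γ 𝒦} {ω w B x y : 𝒦 →L[ℂ] 𝒦} {c : α → G}
  {C : α → 𝒦 →L[ℂ] 𝒦} {J J' W θ e s E κ π β η R : ℝ} {g : G} {m : ℕ}

/-- the data of the contradiction -/
structure Sit (A : Amb G Γ 𝒦) (ω w B : 𝒦 →L[ℂ] 𝒦) (c : α → G) (C : α → 𝒦 →L[ℂ] 𝒦)
    (J J' W θ e s E κ π β : ℝ) (m : ℕ) : Prop where
  dat : Dat A ω c C J θ e s E κ
  stk : Stk A ω B J' W κ π
  hW : 8 * (m + 1) * J ≤ W
  m1 : 1 ≤ m
  hE : m * E ≤ κ ^ 2 / 40 * π
  hm : 2⁻¹ ^ m ≤ E
  β0 : 0 ≤ β
  β1 : β ≤ 1 / 20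
  hβ : 5 * κ ≤ β ^ 2
  iw : A.Iso w
  bw : A.Band 0 w
  cl : A.n2 (ω - w) ≤ κ

namespace Sit

variable (h : Sit A ω w B c C J J' W θ e s E κ π β m)
include h

theorem κβ : 100 * κ ≤ β := by nlinarith [h.hβ, h.β0, h.β1]

theorem E_le : E ≤ κ ^ 2 / 40 * π :=
  (le_mul_of_one_le_left h.dat.E0 (Nat.one_le_cast.2 h.m1)).trans h.hE

theorem Eκ : E ≤ κ := by
  have := h.stk.k0
  nlinarith [h.E_le, h.stk.k1, h.stk.p1, h.stk.p0, mul_pos this h.stk.p0]

theorem JW : 2 * J ≤ W := by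
  nlinarith [h.hW, h.dat.J0, mul_nonneg (Nat.cast_nonneg (α := ℝ) m) h.dat.J0]

theorem quad (d : A.Deg g x) (n : ‖x‖ ≤ 1) (bx : A.Band J x) :
    A.hs (x * df A ω B) ≤ (A.n2 (x * ω) + β) * π :=
  h.dat.quad h.stk h.hW h.m1 h.hE h.hm h.β0 h.hβ d n bx

theorem dq : A.Deg 1 (1 - w * star w) := deg_id.sub (h.iw.deg.mul_star h.iw.deg)

theorem junk : A.hs ((1 - w * star w) * df A ω B) ≤ 2 * β * π := by
  have n : ‖1 - w * star w‖ ≤ 1 := by simpa using norm_compl h.iw.nrm'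
  have h1 := h.quad h.dq n ((band_id.sub (h.bw.mul0 h.bw.star)).mono h.dat.J0)
  have e : (1 - w * star w) * ω = (1 - w * star w) * (ω - w) := by
    rw [mul_sub (1 - _), sub_mul 1 _ w, mul_assoc w, h.iw.iso, h.iw.col, one_mul, sub_self,
      sub_zero]
  rw [e] at h1
  exact h1.trans (mul_le_mul_of_nonneg_right (by
    linarith [(n2_mul1 n _).trans h.cl, h.κβ, h.stk.k0]) h.stk.p0.le)

theorem junk' : A.hs (df A ω B * (1 - w * star w)) ≤ 2 * β * π := by
  have := h.stk.hs_swap h.dq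
  rw [star_sub, star_one, star_mul, star_star] at this
  exact this.trans_le h.junk

theorem dU : A.Deg 1 (star w * df A ω B * w) := (h.iw.deg.star_mul h.stk.dD).mul1 h.iw.deg

theorem cU : A.Cor (star w * df A ω B * w) :=
  cor_of (by rw [← mul_assoc, ← mul_assoc, h.iw.row]) (col_mul h.iw.col _)

theorem sU : star (star w * df A ω B * w) = star w * df A ω B * w := by
  rw [star_mul, star_mul, star_star, h.stk.sD, mul_assoc]

theorem n2_le (hx : A.HS x) (d : A.Deg g x) : A.n2 (star w * x * w) ≤ A.hs x := by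
  rw [mul_assoc]
  exact (n2_mul1 h.iw.nrm' _).trans ((hx.mul_right d h.iw.deg).n2_le.trans
    (hx.hs_mul_right1 d h.iw.deg h.iw.nrm))

theorem U_le : A.n2 (star w * df A ω B * w) ≤ π := (h.n2_le h.stk.hD h.stk.dD).trans h.stk.pi.le

theorem le_U : (1 - 4 * β) * π ≤ A.n2 (star w * df A ω B * w) := by
  have H := h.stk.hD
  have hU := hs_col h.cU.col
  have H1 := H.mul (1 - w * star w)
  have H2 := H.mul_right h.stk.dD h.dq
  have H3 := hU.mul_right h.dU h.iw.deg.star1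
  have h1 := (H2.hs_mul1 (norm_mul_le1 h.iw.nrm h.iw.nrm')).trans h.junk'
  have h2 := (H3.hs_mul1 h.iw.nrm).trans (hU.hs_mul_right1 h.dU h.iw.deg.star1 h.iw.nrm')
  have e : (1 - w * star w) * df A ω B + w * star w * (df A ω B * (1 - w * star w)) +
      w * (star w * df A ω B * w * star w) = df A ω B := by noncomm_ring
  have h3 := (H1.add (H2.mul (w * star w))).hs_add (H3.mul w)
  rw [e, h.stk.pi] at h3
  rw [hs_eq_n2 h.cU.col] at h2
  linarith [H1.hs_add (H2.mul (w * star w)), h.junk]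

theorem U_stat (d : A.Deg 1 x) (bx : A.Band J x) (n : ‖x‖ ≤ 1) :
    ‖A.τ (star w * df A ω B * w * x * (star w * df A ω B * w)) -
      (A.n2 (star w * df A ω B * w) ^ 2 : ℝ) * A.τ x‖ ≤ 11 * β * π ^ 2 := by
  have H := h.stk.hD
  have dD := h.stk.dD
  have p0 := h.stk.p0
  have dw := h.iw.deg
  have nX := norm_mul_le1 (norm_mul_le1 h.iw.nrm n) h.iw.nrm'
  have h1 := h.dat.stat h.stk h.hW h.m1 h.hE h.hm ((dw.mul1 d).mul1 dw.star1) nX
    (((h.bw.zero_mul bx).mul0 h.bw.star).mono (by linarith [h.dat.J0]))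
  have e1 : A.τ (star w * df A ω B * w * x * (star w * df A ω B * w)) =
      A.ip (df A ω B) (w * x * star w * df A ω B) -
        A.ip (df A ω B * (1 - w * star w)) (w * x * star w * df A ω B) := by
    have e2 : star w * df A ω B * w * x * (star w * df A ω B * w) =
        star (df A ω B * w) * (w * x * star w * df A ω B * w) := by
      rw [star_mul, h.stk.sD]
      noncomm_ring
    rw [e2, τ_eq, ← ip_col (col_mul h.iw.col _) ((H.mul _).mul_right
      (((dw.mul1 d).mul1 dw.star1).mul1 dD) dw), (H.mul_right dD dw).ip_mul_right (g := 1)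
      (H.mul _) ((dD.mul1 dw).cast (mul_one 1).symm) (((dw.mul1 d).mul1 dw.star1).mul1 dD) dw,
      ← H.sub_ip (H.mul_right dD h.dq), mul_one_sub, sub_sub_cancel, mul_assoc]
  have h2 := (ip_le (df A ω B * (1 - w * star w)) _).trans (mul_le_mul h.junk'
    (h.stk.hs_left nX) (hs_nonneg _) (mul_nonneg (by linarith [h.β0]) p0.le))
  have h3 : ‖A.i0 ω (w * x * star w * ω) - A.τ x‖ ≤ 2 * κ := by
    have e2 : A.i0 ω (w * x * star w * ω) - A.τ x =
        A.i0 (star w * ω - A.V 1) (x * (star w * ω)) + A.i0 (A.V 1) (x * (star w * ω - A.V 1)) := by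
      rw [mul_assoc, mul_assoc, i0_mul, sub_i0, mul_sub, i0_sub, i0_p', τ_p]
      ring
    have h4 := cmp_le h.dat.iso h.iw h.cl
    have h5 := (n2_mul1 n _).trans ((n2_mul1 h.iw.nrm' ω).trans h.dat.iso.n2_eq.le)
    rw [e2]
    refine (norm_add_le _ _).trans ?_
    linarith [(i0_le _ _).trans (mul_le_mul h4 h5 (n2_nonneg _) h.stk.k0.le),
      (i0_le _ _).trans (mul_le_mul (n2_p1 (A := A)).le ((n2_mul1 n _).trans h4) (n2_nonneg _)
        zero_le_one)]
  have h4 := (τ_le (A := A) x).trans ((n2_le_norm x).trans n)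
  have h5 := pow_le_pow_left₀ (n2_nonneg _) h.U_le 2
  have h6 := pow_le_pow_left₀ (mul_nonneg (by linarith [h.β1]) p0.le) h.le_U 2
  rw [e1]
  generalize A.ip (df A ω B) (w * x * star w * df A ω B) = z1 at *
  generalize A.ip (df A ω B * (1 - w * star w)) (w * x * star w * df A ω B) = z2 at *
  generalize A.i0 ω (w * x * star w * ω) = z3 at *
  generalize A.n2 (star w * df A ω B * w) = u at *
  have e3 : z1 - z2 - (u ^ 2 : ℝ) * A.τ x = (z1 - z3 * (π ^ 2 : ℝ)) - z2 +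
      ((π ^ 2 : ℝ) * (z3 - A.τ x) + (π ^ 2 - u ^ 2 : ℝ) * A.τ x) := by
    push_cast
    ring
  have h7 : ‖((π ^ 2 : ℝ) : ℂ) * (z3 - A.τ x)‖ ≤ π ^ 2 * (2 * κ) := by
    rw [norm_mul, Complex.norm_real, Real.norm_of_nonneg (sq_nonneg _)]
    exact mul_le_mul_of_nonneg_left h3 (sq_nonneg _)
  have h8 : ‖((π ^ 2 - u ^ 2 : ℝ) : ℂ) * A.τ x‖ ≤ π ^ 2 - u ^ 2 := by
    rw [norm_mul, Complex.norm_real, Real.norm_of_nonneg (by linarith)]
    exact mul_le_of_le_one_right (by linarith) h4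
  rw [e3]
  refine (norm_add_le _ _).trans ((add_le_add (norm_sub_le _ _) (norm_add_le _ _)).trans ?_)
  nlinarith [mul_le_mul_of_nonneg_right h.κβ (sq_nonneg π), mul_pos h.stk.k0 (pow_pos p0 2),
    mul_nonneg (sq_nonneg β) (sq_nonneg π)]

theorem U_sing (ht : ‖A.i0 ω (df A ω B * ω)‖ ≤ κ * π) (d : A.Deg 1 x) (n : ‖x‖ ≤ 1) :
    ‖A.τ (x * (star w * df A ω B * w))‖ ≤ 6 * κ * π := by
  have h1 := h.dat.sing h.stk h.JW h.E_le ht
  have n1 : ‖w * star x‖ ≤ 1 := norm_mul_le1 h.iw.nrm (by rwa [norm_star])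
  have d1 := h.iw.deg.mul1 d.star1
  have e1 : A.τ (x * (star w * df A ω B * w)) = A.i0 (w * star x) (df A ω B * ω) -
      A.i0 (df A ω B * (w * star x)) (ω - w) := by
    have e2 : x * (star w * df A ω B * w) = star (w * star x) * (df A ω B * w) := by
      rw [star_mul, star_star]
      noncomm_ring
    have e3 := i0_mul (A := A) (w * star x) (df A ω B) (ω - w)
    rw [h.stk.sD] at e3
    rw [e2, τ_eq, ← e3, ← i0_sub, ← mul_sub, sub_sub_cancel]
  rw [e1]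
  refine (norm_sub_le _ _).trans ?_
  linarith [(i0_le _ _).trans (mul_le_mul ((n2_le_norm _).trans n1) h1 (n2_nonneg _) zero_le_one),
    (i0_le _ _).trans (mul_le_mul ((h.stk.hD.mul_right h.stk.dD d1).n2_le.trans
      (h.stk.hs_right d1 n1)) h.cl (n2_nonneg _) h.stk.p0.le)]

theorem half (hx : A.One ω x g E) (bx : A.Band J x) (d : A.Deg g y) (cy : A.Cor y)
    (by' : A.Band J y) (n : ‖y‖ ≤ 1) :
    A.hs ((w * y * star w - x) * df A ω B) ≤ (A.n2 (y - A.V g) + 3 * β) * π := by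
  have h1 := word_le h.dat.iso h.iw h.cl n cy hx.l
  have n1 := (norm_sub_le _ _).trans (add_le_add (norm_mul_le1 (norm_mul_le1 h.iw.nrm n)
    h.iw.nrm') hx.nrm)
  have h2 := h.quad (x := (2 : ℂ)⁻¹ • (w * y * star w - x))
    ((((h.iw.deg.one_mul d).mul1 h.iw.deg.star1).sub hx.deg).smul _)
    (by rw [norm_smul, norm_inv, Complex.norm_ofNat]; linarith)
    ((((h.bw.zero_mul by').mul0 h.bw.star).sub bx).smul _)
  rw [smul_mul_assoc, smul_mul_assoc, (h.stk.hD.mul _).hs_smul, n2_smul, norm_inv,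
    Complex.norm_ofNat] at h2
  have h3 := mul_le_mul_of_nonneg_right (show A.n2 ((w * y * star w - x) * ω) ≤
    A.n2 (y - A.V g) + β by linarith [h.κβ, h.Eκ, h.stk.k0]) h.stk.p0.le
  linarith

theorem U_comm (hx : A.One ω x g E) (bx : A.Band J x) (d : A.Deg g y) (cy : A.Cor y)
    (by' : A.Band J y) (n : ‖y‖ ≤ 1) :
    A.n2 (y * (star w * df A ω B * w) - star w * df A ω B * w * y) ≤
      (2 * A.n2 (y - A.V g) + 7 * β) * π := by
  have H := h.stk.hD
  have dD := h.stk.dD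
  have dY := (h.iw.deg.one_mul d).mul1 h.iw.deg.star1
  have h1 := h.half hx bx d cy by' n
  have h2 := h.half hx.star bx.star d.star (cor_of (by rw [← star_p, ← star_mul, cy.col])
    (by rw [← star_p, ← star_mul, cy.row])) by'.star (by rwa [norm_star])
  rw [← A.V_star, ← star_sub y, n2_star (d.sub (deg_V g)) (col_sub cy.col (V_mul_p g))
    (by rw [mul_sub, cy.row, p_mul_V])] at h2
  have h3 := h.stk.hs_swap (dY.sub hx.deg).star
  rw [star_star, star_sub, star_mul, star_mul, star_star, ← mul_assoc] at h3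
  have h4 := h.stk.comm' hx.deg hx.nrm bx h.dat.J0 h.JW (hx.l.trans (h.E_le.trans
    (mul_le_mul_of_nonneg_right (by nlinarith [sq_nonneg κ]) h.stk.p0.le)))
  have H1 := H.mul (w * y * star w - x)
  have H2 := (H.mul x).sub (H.mul_right dD hx.deg)
  have H3 := H.mul_right dD (dY.sub hx.deg)
  have e1 : y * (star w * df A ω B * w) - star w * df A ω B * w * y = star w *
      ((w * y * star w - x) * df A ω B + (x * df A ω B - df A ω B * x) -
        df A ω B * (w * y * star w - x)) * w := by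
    calc _ = A.V 1 * y * (star w * df A ω B * w) - star w * df A ω B * w * (y * A.V 1) := by
          rw [cy.row, cy.col]
      _ = _ := by rw [← h.iw.iso]; noncomm_ring
  rw [e1]
  refine (h.n2_le ((H1.add H2).sub H3) ((((dY.sub hx.deg).mul1 dD).add ((hx.deg.mul1 dD).sub
    (dD.one_mul hx.deg))).sub (dD.one_mul (dY.sub hx.deg)))).trans ?_
  nlinarith [(H1.add H2).hs_sub H3, H1.hs_add H2,
    mul_le_mul_of_nonneg_right h.κβ h.stk.p0.le, mul_pos h.stk.k0 h.stk.p0]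

end Sit

theorem num1 {K k m e : ℝ} (hk : 0 ≤ k) (h : 0 ≤ m * e) :
    5 * (2 * (K * (m * e))) ≤ (10 * K + 3 * (2 + 16 * k)) * m * e := by
  nlinarith [mul_nonneg hk h]

theorem num2 {K J : ℝ} (k : ℕ) (hK : 0 ≤ K) (hm : (1 : ℝ) ≤ m) (hJ : 0 ≤ J) :
    3 * (2 * J + ((k * m : ℕ) : ℝ) * (8 * (m + 1) * J)) ≤
      (10 * K + 3 * (2 + 16 * k)) * m ^ 2 * J := by
  push_cast
  have h4 : J ≤ m ^ 2 * J := le_mul_of_one_le_left hJ (one_le_pow₀ hm)
  have h5 : m * J ≤ m ^ 2 * J := mul_le_mul_of_nonneg_right (by nlinarith) hJ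
  nlinarith [mul_le_mul_of_nonneg_left h5 (Nat.cast_nonneg (α := ℝ) k),
    mul_nonneg hK (hJ.trans h4)]

/-- **banded projections** -/
theorem jf (hE : A.Esc) : A.JF := by
  obtain ⟨η, S, R, η0, R0, hE⟩ := hE
  obtain ⟨β, β0, β1, βη⟩ : ∃ β : ℝ, 0 < β ∧ β ≤ 1 / 20 ∧ 20 * β ≤ η :=
    ⟨min η 1 / 20, by positivity, by linarith [min_le_right η 1], by linarith [min_le_left η 1]⟩
  obtain ⟨κ, hκ⟩ : ∃ κ : ℝ, κ = β ^ 2 / 5 := ⟨_, rfl⟩
  have k0 : 0 < κ := by rw [hκ]; positivity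
  have k1 : κ ≤ 1 / 4 := by rw [hκ]; nlinarith
  have k2 : κ ^ 2 ≤ 1 / 16 := by nlinarith
  obtain ⟨k₀, hk₀⟩ := exists_pow_lt_of_lt_one (show (0 : ℝ) < 2⁻¹ by norm_num)
    (show 1 - κ ^ 2 / 16 < 1 by linarith [pow_pos k0 2])
  have K1 : 1 ≤ 40 / κ ^ 2 := (one_le_div (by positivity)).2 (by linarith)
  have k4 : κ ^ 4 ≤ κ / 16 := by nlinarith [mul_le_mul_of_nonneg_left k2 (mul_pos k0 k0).le]
  refine ⟨S, R, κ ^ 4 / 6, 10 * (40 / κ ^ 2) + 3 * (2 + 16 * k₀), R0, by positivity,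
    by linarith [Nat.cast_nonneg (α := ℝ) k₀],
    fun α _ _ ω w c Y L e J m hω hw pw cl mix hY hL RJ e0 e1 m1 hm => ?_⟩
  have J0 : 0 ≤ J := R0.trans RJ
  have m0 : (1 : ℝ) ≤ m := Nat.one_le_cast.2 m1
  have dat : Dat A ω c Y J e (κ ^ 4 / 6) κ e κ :=
    ⟨hω, mix, e0.le, le_rfl, fun a => (hY a).1, fun a => (hY a).2.1, fun a => (hY a).2.2, k0.le,
      le_rfl, by linarith, J0⟩
  obtain ⟨a⟩ := ‹Nonempty α›
  have t0 := (((hY a).1.one hω).mul_two hω ((hY a).1.star hω)).cast (mul_inv_cancel _)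
  have c0 : Cl A (2 * J) (Y a * star (Y a)) := ⟨t0.deg, by rw [star_mul, star_star], t0.nrm,
    ((hY a).2.2.mul (hY a).2.2.star).mono (by linarith), t0.HS hω⟩
  have W0 : 2 * J ≤ 8 * (m + 1) * J := by nlinarith
  have drop : ∀ J' B, 0 ≤ J' → Cl A J' B → A.hs (df A ω B) ≤ 1 →
      40 / κ ^ 2 * (m * e) < A.hs (df A ω B) → ∃ B', Cl A (J' + 8 * (m + 1) * J) B' ∧
        A.hs (df A ω B') ≤ (1 - κ ^ 2 / 16) * A.hs (df A ω B) := fun J' B J0' cB p1 h1 => by
    by_contra hc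
    obtain ⟨π, hπ⟩ : ∃ π, A.hs (df A ω B) = π := ⟨_, rfl⟩
    rw [hπ] at p1 h1 hc
    have p0 : 0 < π := lt_trans (by positivity) h1
    have h : Sit A ω w B c Y J J' (8 * (m + 1) * J) e (κ ^ 4 / 6) κ e κ π β m :=
      ⟨dat, ⟨hω, cB, hπ, fun B' h2 => le_of_not_ge fun h3 => hc ⟨B', h2, h3⟩, k0, k1, p0, p1, J0',
        by linarith⟩, le_rfl, m1, by
          rw [div_mul_eq_mul_div, div_lt_iff₀ (by positivity)] at h1
          linarith, hm, β0.le, β1, by linarith, hw, band_of_comm pw, by linarith⟩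
    have ht := h.stk.scal (c0.mono W0) (t0.le.trans (by linarith))
    have i0 : 0 < π⁻¹ := inv_pos.2 p0
    have nn : ∀ z : ℂ, ‖((π⁻¹ : ℝ) : ℂ) * z‖ = π⁻¹ * ‖z‖ := fun z => by
      rw [norm_mul, Complex.norm_real, Real.norm_of_nonneg i0.le]
    have n2s : ∀ T, A.n2 (((π⁻¹ : ℝ) : ℂ) • T) = π⁻¹ * A.n2 T := fun T => by
      rw [n2_smul, Complex.norm_real, Real.norm_of_nonneg i0.le]
    have τs : ∀ (z : ℂ) T, A.τ (z • T) = z * A.τ T := fun z T => by rw [τ_eq', τ_eq', i0_smul]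
    have h2 := hE (((π⁻¹ : ℝ) : ℂ) • (star w * df A ω B * w)) (h.dU.smul _)
      (by rw [Cor, mul_smul_comm, smul_mul_assoc, h.cU])
      (by rw [star_smul, h.sU, Complex.star_def, Complex.conj_ofReal])
      ((n2s _).trans_le ((inv_mul_le_one₀ p0).2 h.U_le)) (fun x d _ bx n => ?_)
      (fun x d _ n => ?_) fun g hg y d cy by' n => ?_
    · have h3 := (n2s _).symm.trans_lt h2
      rw [inv_mul_lt_iff₀ p0] at h3
      nlinarith [h.le_U]
    · have h3 := h.U_stat d (bx.mono RJ) n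
      change ‖_ - ((A.n2 _ ^ 2 : ℝ) : ℂ) * _‖ ≤ _
      rw [n2s, smul_mul_assoc, smul_mul_assoc, mul_smul_comm, τs, τs, mul_pow, sq π⁻¹,
        Complex.ofReal_mul, Complex.ofReal_mul, mul_assoc _ _ (A.τ x),
        mul_assoc ((π⁻¹ : ℝ) : ℂ) ((π⁻¹ : ℝ) : ℂ), ← mul_sub, ← mul_sub, nn, nn,
        inv_mul_le_iff₀ p0, inv_mul_le_iff₀ p0]
      nlinarith [mul_le_mul_of_nonneg_right βη (sq_nonneg π), mul_pos β0 (pow_pos p0 2)]
    · rw [mul_smul_comm, τs, nn, inv_mul_le_iff₀ p0]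
      nlinarith [h.U_sing ht d n, mul_le_mul_of_nonneg_right h.κβ p0.le,
        mul_le_mul_of_nonneg_right βη p0.le, mul_pos β0 p0]
    · change A.n2 _ ≤ η + 10 * A.n2 _
      rw [mul_smul_comm, smul_mul_assoc, ← smul_sub, n2s, inv_mul_le_iff₀ p0]
      nlinarith [h.U_comm (hL g hg).1 (hL g hg).2 d cy (by'.mono RJ) n, mul_pos β0 p0,
        mul_le_mul_of_nonneg_right βη p0.le, mul_nonneg (n2_nonneg (A := A) (y - A.V g)) p0.le]
  have q0 : 0 ≤ 1 - κ ^ 2 / 16 := by linarith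
  have q1 : 1 - κ ^ 2 / 16 ≤ 1 := by linarith [sq_nonneg κ]
  have iter : ∀ N : ℕ, ∃ B, Cl A (2 * J + N * (8 * (m + 1) * J)) B ∧
      A.hs (df A ω B) ≤ max ((1 - κ ^ 2 / 16) ^ N) (40 / κ ^ 2 * (m * e)) := fun N => by
    induction N with
    | zero =>
      refine ⟨_, ((cl_zero _).conv c0 (s := 1 / 2) (by norm_num) (by norm_num)).mono (by simp),
        le_max_of_le_left ?_⟩
      have e2 : df A ω (((1 - 1 / 2 : ℝ) : ℂ) • 0 + ((1 / 2 : ℝ) : ℂ) • (Y a * star (Y a))) =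
          (2 : ℂ)⁻¹ • (Y a * star (Y a) - A.ζ ω 1) := by
        simp only [df]
        push_cast
        module
      rw [e2, t0.hs.hs_smul, norm_inv, Complex.norm_ofNat, pow_zero]
      linarith [t0.le]
    | succ N ih =>
      obtain ⟨B, h1, h2⟩ := ih
      have e2 : 2 * J + N * (8 * (m + 1) * J) + 8 * (m + 1) * J =
          2 * J + ((N + 1 : ℕ) : ℝ) * (8 * (m + 1) * J) := by push_cast; ring
      rcases le_or_gt (A.hs (df A ω B)) (40 / κ ^ 2 * (m * e)) with h3 | h3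
      · exact ⟨B, h1.mono (by rw [← e2]; linarith), le_max_of_le_right h3⟩
      · have h4 := (le_max_iff.1 h2).resolve_right (not_le.2 h3)
        obtain ⟨B', h5, h6⟩ := drop _ B (by positivity) h1 (h4.trans (pow_le_one₀ q0 q1)) h3
        exact ⟨B', e2 ▸ h5, le_max_of_le_left (h6.trans (by
          rw [pow_succ' _ N]; exact mul_le_mul_of_nonneg_left h4 q0))⟩
  obtain ⟨B, h1, h2⟩ := iter (k₀ * m)
  have me : e ≤ m * e := le_mul_of_one_le_left e0.le m0
  have h3 : A.hs (df A ω B) ≤ 40 / κ ^ 2 * (m * e) := h2.trans (max_le (by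
    rw [pow_mul]
    exact ((pow_le_pow_left₀ (pow_nonneg q0 _) hk₀.le m).trans hm).trans
      (me.trans (le_mul_of_one_le_left (by positivity) K1))) le_rfl)
  have e2 : (2 : ℂ) • B - A.ζ ω 1 = (2 : ℂ) • df A ω B := by
    simp only [df]
    module
  have H : A.HS (df A ω B) := h1.hs.sub ((hω.hs_ζ 1).smul _)
  have k₀0 : (0 : ℝ) ≤ k₀ := Nat.cast_nonneg k₀
  refine ⟨nw ((2 : ℂ) • B), (two_nw hω (h1.deg.smul _) (by
    rw [norm_smul, Complex.norm_ofNat]; linarith [h1.nrm]) (e2 ▸ H.smul _)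
      (e := 2 * (40 / κ ^ 2 * (m * e))) (by
        rw [e2, H.hs_smul, Complex.norm_ofNat]; linarith)).mono ?_,
    ((h1.band.smul _).nw (by positivity)).mono ?_⟩
  · exact num1 k₀0 (e0.le.trans me)
  · exact num2 k₀ (zero_le_one.trans K1) m0 J0

end Vale.Agent.P092JF
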