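import Vale.Agent.P092JF.Var

/-!
P092 (helper3), block B3, part JF: statistics of the defect, the drop lemma, banded projections.
-/

set_option linter.all false

open scoped InnerProductSpace ENNReal ComplexConjugate
open MeasureTheory Filter Topology

namespace Vale.Agent.P092JF

open Vale.Agent.P092ST Vale.Agent.P092ST.Amb

variable {G Γ 𝒦 : Type} [Group G] [TopologicalSpace G] [Group Γ] [NormedAddCommGroup 𝒦]
  [InnerProductSpace ℂ 𝒦] [CompleteSpace 𝒦] {α : Type} [Fintype α]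

/-- a mixing family of words -/
structure Dat (A : Amb G Γ 𝒦) (ω : 𝒦 →L[ℂ] 𝒦) (c : α → G) (C : α → 𝒦 →L[ℂ] 𝒦)
    (J θ e s E κ : ℝ) : Prop where
  iso : A.Iso ω
  mix : A.Mix θ c
  θ0 : 0 ≤ θ
  θE : θ ≤ E
  two : ∀ a, A.Two ω (C a) (c a) e
  one : ∀ a, A.One ω (C a) (c a) E
  band : ∀ a, A.Band J (C a)
  s0 : 0 ≤ s
  sκ : s ≤ κ
  es : 6 * e ≤ s ^ 4
  J0 : 0 ≤ J

/-- the iterated average -/
noncomputable def ph (C : α → 𝒦 →L[ℂ] 𝒦) (x : 𝒦 →L[ℂ] 𝒦) : ℕ → (𝒦 →L[ℂ] 𝒦)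
  | 0 => x
  | k + 1 => av fun a => C a * ph C x k * star (C a)

variable [Nonempty α] {A : Amb G Γ 𝒦} {ω w B x y : 𝒦 →L[ℂ] 𝒦} {c : α → G}
  {C : α → 𝒦 →L[ℂ] 𝒦} {J J' W θ e s E κ π b β : ℝ} {g : G} {m : ℕ}

theorem norm_i0 (hω : A.Iso ω) (n : ‖x‖ ≤ 1) : ‖A.i0 ω (x * ω)‖ ≤ 1 := by
  refine (i0_le _ _).trans ?_
  rw [hω.n2_eq, one_mul]
  exact (n2_mul1 n _).trans hω.n2_eq.le

theorem norm_cen (hω : A.Iso ω) (n : ‖x‖ ≤ 1) : ‖x - A.i0 ω (x * ω) • 1‖ ≤ 2 := by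
  refine (norm_sub_le _ _).trans ?_
  rw [norm_smul]
  linarith [mul_le_one₀ (norm_i0 hω n) (norm_nonneg _) (norm_one_le (𝒦 := 𝒦))]

theorem Stk.track1 {T : 𝒦 →L[ℂ] 𝒦} (hs : Stk A ω B J' W κ π)
    (hT : A.One ω T g (κ ^ 2 / 8 * π)) (bT : A.Band b T) (b0 : 0 ≤ b) (hW : 2 * b ≤ W)
    (d : A.Deg 1 y) (n : ‖y‖ ≤ 1) : ‖A.ip (df A ω B) (T * y * star T * df A ω B) -
      A.ip (df A ω B) (y * df A ω B)‖ ≤ 2 * κ * π ^ 2 := by
  have d1 := hT.deg
  have n1 := hT.nrm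
  have h1 := hs.comm d1 n1 bT b0 hW hT.l
  have h2 := hs.fix d1.star (by rwa [norm_star]) bT.star b0 hW hT.r
  rw [star_star] at h2
  have H := hs.hD
  have dD := hs.dD
  have p := hs.pi
  generalize df A ω B = D at *
  have H1 := H.mul_right dD d1.star
  have H2 := (H.mul (star T)).sub H1
  have e1 : A.ip D (T * y * star T * D) - A.ip D (y * D) =
      A.ip D (T * y * (star T * D - D * star T)) + A.ip (star T * (D * T) - D) (y * D) := by
    have e2 : A.ip D (T * y * (D * star T)) = A.ip (star T * (D * T)) (y * D) := by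
      rw [mul_assoc, H.ip_mul (H1.mul y), ← mul_assoc y, (H.mul _).ip_mul_right (g := 1) (H.mul y)
        ((d1.star.mul1 dD).cast (one_mul _).symm) (d.mul1 dD) d1.star, star_star, mul_assoc]
    rw [mul_sub, ((H.mul _).mul _).ip_sub (H1.mul _), e2,
      ((H.mul_right dD d1).mul _).sub_ip H, mul_assoc (T * y)]
    ring
  rw [e1]
  refine (norm_add_le _ _).trans ?_
  have h3 := (ip_le D _).trans (mul_le_mul p.le ((H2.hs_mul1 (norm_mul_le1 n1 n)).trans h1)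
    (hs_nonneg _) hs.p0.le)
  have h4 := (ip_le _ _).trans (mul_le_mul h2 ((H.hs_mul1 n).trans p.le) (hs_nonneg _)
    (mul_pos hs.k0 hs.p0).le)
  linarith

namespace Dat

variable (h : Dat A ω c C J θ e s E κ)
include h

theorem E0 : 0 ≤ E := h.θ0.trans h.θE

theorem ph_bd (d : A.Deg 1 x) (n : ‖x‖ ≤ 1) (bx : A.Band b x) : ∀ k : ℕ,
    A.Deg 1 (ph C x k) ∧ ‖ph C x k‖ ≤ 1 ∧ A.Band (b + 2 * k * J) (ph C x k)
  | 0 => ⟨d, n, bx.mono (by simp)⟩
  | k + 1 => by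
    obtain ⟨h1, h2, h3⟩ := ph_bd d n bx k
    exact ⟨Deg.av fun a => (((h.one a).deg.mul1 h1).mul (h.one a).deg.star).cast
      (mul_inv_cancel _), norm_av_le fun a => norm_mul_le1 (norm_mul_le1 (h.one a).nrm h2)
        (by rw [norm_star]; exact (h.one a).nrm), Band.av fun a =>
      (((h.band a).mul h3).mul (h.band a).star).mono (le_of_eq (by push_cast; ring))⟩

theorem step_sc (d : A.Deg 1 y) (n : ‖y‖ ≤ 1) :
    ‖A.i0 ω ((av fun a => C a * y * star (C a)) * ω) - A.i0 ω (y * ω)‖ ≤ 2 * E := by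
  rw [av_mul, i0_av, ← av_const (α := α) (A.i0 ω (y * ω)), ← av_sub]
  refine norm_av_le fun a => ?_
  have e1 : A.i0 (ω * A.V (c a)⁻¹) (y * (ω * A.V (c a)⁻¹)) = A.i0 ω (y * ω) := by
    rw [← mul_assoc, i0_V (g := 1) ((h.iso.degV _).cast (one_mul _).symm) (d.mul1 h.iso.deg),
      mul_assoc, A.V_mul, mul_inv_cancel, h.iso.col]
  have e2 : A.i0 ω (C a * y * star (C a) * ω) - A.i0 ω (y * ω) =
      A.i0 (star (C a) * ω - ω * A.V (c a)⁻¹) (y * (star (C a) * ω)) +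
        A.i0 (ω * A.V (c a)⁻¹) (y * (star (C a) * ω - ω * A.V (c a)⁻¹)) := by
    rw [mul_assoc, mul_assoc, i0_mul, sub_i0, mul_sub, i0_sub, e1]
    ring
  have h1 := (h.one a).r
  have h2 : A.n2 (y * (star (C a) * ω)) ≤ 1 := (n2_mul1 n _).trans ((n2_mul1
    (by rw [norm_star]; exact (h.one a).nrm) _).trans h.iso.n2_eq.le)
  have h3 : A.n2 (ω * A.V (c a)⁻¹) ≤ 1 := (n2_V_le h.iso.deg _).trans h.iso.n2_eq.le
  rw [e2]
  refine (norm_add_le _ _).trans ?_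
  linarith [(i0_le _ _).trans (mul_le_mul h1 h2 (n2_nonneg _) h.E0),
    (i0_le _ _).trans (mul_le_mul h3 ((n2_mul1 n _).trans h1) (n2_nonneg _) zero_le_one)]

theorem step_n2 (d : A.Deg 1 y) (n : ‖y‖ ≤ 1) {r : ℝ} (hθ : θ ≤ r)
    (hr : A.n2 ((y - A.i0 ω (y * ω) • 1) * ω) ≤ r) :
    A.n2 (((av fun a => C a * y * star (C a)) -
      A.i0 ω ((av fun a => C a * y * star (C a)) * ω) • 1) * ω) ≤ (θ + s) * r + 4 * E := by
  have h1 := edge h.iso h.mix h.θ0 h.two ((d.sub (deg_id.smul _)).mul1 h.iso.deg)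
    (col_mul h.iso.col _) ((norm_mul_le _ _).trans ((mul_le_of_le_one_right (norm_nonneg _)
      h.iso.nrm).trans (norm_cen h.iso n))) hr hθ (t := 0) (by
        rw [sub_mul, i0_sub, smul_mul_assoc, one_mul, i0_smul, i0_self, h.iso.n2_eq]
        simp) h.s0 h.es
  have h2 := h.step_sc d n
  have h3 := norm_i0 h.iso n
  generalize A.i0 ω ((av fun a => C a * y * star (C a)) * ω) = z' at *
  generalize A.i0 ω (y * ω) = z at *
  have e1 : ((av fun a => C a * y * star (C a)) - z' • 1) * ω =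
      (av fun a => C a * ((y - z • 1) * ω) * A.V (c a)⁻¹) +
        (av fun a => C a * y * (star (C a) * ω - ω * A.V (c a)⁻¹) +
          z • (C a * ω * A.V (c a)⁻¹ - ω)) - (z' - z) • ω := by
    rw [sub_mul, av_mul, smul_mul_assoc, one_mul, ← av_add, sub_smul, ← sub_add,
      ← av_const (α := α) (z • ω), sub_add_eq_add_sub, ← av_add]
    congr 1
    refine congrArg av (funext fun a => ?_)
    simp only [sub_mul, mul_sub, smul_mul_assoc, mul_smul_comm, one_mul, smul_sub, mul_assoc]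
    abel
  have h4 : A.n2 (av fun a => C a * y * (star (C a) * ω - ω * A.V (c a)⁻¹) +
      z • (C a * ω * A.V (c a)⁻¹ - ω)) ≤ 2 * E := n2_av fun a => by
    refine (n2_add _ _).trans ?_
    rw [n2_smul]
    linarith [(n2_mul1 (norm_mul_le1 (h.one a).nrm n) _).trans (h.one a).r,
      mul_le_mul h3 ((h.one a).err h.iso) (n2_nonneg _) zero_le_one]
  rw [e1]
  refine (n2_sub _ _).trans ?_
  rw [n2_smul, h.iso.n2_eq]
  linarith [n2_add (A := A) (av fun a => C a * ((y - z • 1) * ω) * A.V (c a)⁻¹)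
    (av fun a => C a * y * (star (C a) * ω - ω * A.V (c a)⁻¹) + z • (C a * ω * A.V (c a)⁻¹ - ω))]

theorem ph_mix (hs : θ + s ≤ 1 / 2) (d : A.Deg 1 x) (n : ‖x‖ ≤ 1) (bx : A.Band b x) : ∀ k : ℕ,
    ‖A.i0 ω (ph C x k * ω) - A.i0 ω (x * ω)‖ ≤ 2 * k * E ∧
      A.n2 ((ph C x k - A.i0 ω (ph C x k * ω) • 1) * ω) ≤ 2 * (θ + s) ^ k + 8 * E
  | 0 => ⟨by simp [ph], by
      have := (n2_mul _ _).trans (mul_le_mul (norm_cen h.iso n) h.iso.n2_eq.le (n2_nonneg _)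
        zero_le_two)
      rw [pow_zero]
      exact this.trans (by linarith [h.E0])⟩
  | k + 1 => by
    obtain ⟨h1, h2⟩ := ph_mix hs d n bx k
    obtain ⟨h3, h4, -⟩ := h.ph_bd d n bx k
    have h5 : 0 ≤ (θ + s) ^ k := pow_nonneg (add_nonneg h.θ0 h.s0) k
    have E0 := h.E0
    refine ⟨(norm_sub_le_norm_sub_add_norm_sub _ _ _).trans ((add_le_add (h.step_sc h3 h4)
      h1).trans (le_of_eq (by push_cast; ring))), (h.step_n2 h3 h4 (by linarith [h.θE])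
        h2).trans ?_⟩
    rw [pow_succ]
    nlinarith

theorem track (hs : Stk A ω B J' W κ π) (hW : 2 * m * J ≤ W) (hE : m * E ≤ κ ^ 2 / 8 * π)
    (d : A.Deg 1 x) (n : ‖x‖ ≤ 1) : ∀ (j k : ℕ) (T : 𝒦 →L[ℂ] 𝒦) (g : G), k + j ≤ m →
    A.One ω T g (k * E) → A.Band (k * J) T →
    ‖A.ip (df A ω B) (T * ph C x j * star T * df A ω B) - A.ip (df A ω B) (x * df A ω B)‖ ≤
      2 * κ * π ^ 2
  | 0, k, T, g, hk, h1, h2 => by
    have hk' : (k : ℝ) ≤ m := Nat.cast_le.2 hk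
    exact hs.track1 (h1.mono ((mul_le_mul_of_nonneg_right hk' h.E0).trans hE)) h2
      (mul_nonneg (Nat.cast_nonneg k) h.J0)
      (by linarith [mul_le_mul_of_nonneg_right hk' h.J0]) d n
  | j + 1, k, T, g, hk, h1, h2 => by
    rw [ph, mul_av, av_mul, av_mul, ip_av fun a => hs.hD.mul _,
      ← av_const (α := α) (A.ip (df A ω B) (x * df A ω B)), ← av_sub]
    refine norm_av_le fun a => ?_
    have := track hs hW hE d n j (k + 1) (T * C a) (g * c a) (by omega)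
      ((h1.mul h.iso (h.one a)).mono (le_of_eq (by push_cast; ring)))
      ((h2.mul (h.band a)).mono (le_of_eq (by push_cast; ring)))
    rw [star_mul] at this
    simpa only [mul_assoc] using this

/-- **the statistics of the defect** -/
theorem stat (hs : Stk A ω B J' W κ π) (hW : 8 * (m + 1) * J ≤ W) (m1 : 1 ≤ m)
    (hE : m * E ≤ κ ^ 2 / 40 * π) (hm : 2⁻¹ ^ m ≤ E) (d : A.Deg 1 x) (n : ‖x‖ ≤ 1)
    (bx : A.Band (2 * J) x) :
    ‖A.ip (df A ω B) (x * df A ω B) - A.i0 ω (x * ω) * (π ^ 2 : ℝ)‖ ≤ 5 * κ * π ^ 2 := by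
  have k0 := hs.k0
  have k1 := hs.k1
  have p0 := hs.p0
  have p1 := hs.p1
  have J0 := h.J0
  have m0 : (1 : ℝ) ≤ m := Nat.one_le_cast.2 m1
  have mJ := mul_nonneg (zero_le_one.trans m0) J0
  have mE := le_mul_of_one_le_left h.E0 m0
  have q0 : 0 ≤ κ ^ 2 * π := by positivity
  have q1 : κ ^ 2 * π ≤ κ := by nlinarith [mul_pos k0 p0]
  have h1 := h.track hs (m := m) (by linarith) (by linarith) d n m 0 1 1 (by omega)
    (h.iso.one_id.mono (by simp)) (band_id.mono (by simp))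
  rw [star_one, mul_one, one_mul] at h1
  have hθ : θ + s ≤ 1 / 2 := by linarith [h.θE, h.sκ]
  obtain ⟨h2, h3⟩ := h.ph_mix hθ d n bx m
  have h3' := (pow_le_pow_left₀ (add_nonneg h.θ0 h.s0) (hθ.trans_eq (one_div 2)) m).trans hm
  obtain ⟨h4, h5, h6⟩ := h.ph_bd d n bx m
  have h7 := norm_cen h.iso h5
  generalize A.i0 ω (ph C x m * ω) = z at *
  have h8 := hs.kill (x := (2 : ℂ)⁻¹ • (ph C x m - z • 1)) ((h4.sub (deg_id.smul _)).smul _)
    (by rw [norm_smul, norm_inv, Complex.norm_ofNat]; linarith)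
    ((h6.sub ((band_id.mono (by linarith)).smul _)).smul _) (by linarith) (by linarith)
    (by rw [smul_mul_assoc, n2_smul, norm_inv, Complex.norm_ofNat]; linarith)
  rw [smul_mul_assoc, (hs.hD.mul _).hs_smul, norm_inv, Complex.norm_ofNat] at h8
  have h9 := (ip_le (df A ω B) _).trans (mul_le_mul hs.pi.le
    (show A.hs ((ph C x m - z • 1) * df A ω B) ≤ 2 * (κ * π) by linarith) (hs_nonneg _) p0.le)
  rw [sub_mul, smul_mul_assoc, one_mul, (hs.hD.mul _).ip_sub (hs.hD.smul _), hs.hD.ip_smul,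
    ip_self, hs.pi] at h9
  have h10 : ‖z * (π ^ 2 : ℝ) - A.i0 ω (x * ω) * (π ^ 2 : ℝ)‖ ≤ κ * π ^ 2 := by
    rw [← sub_mul, norm_mul, Complex.norm_real, Real.norm_of_nonneg (sq_nonneg _)]
    exact mul_le_mul_of_nonneg_right (h2.trans (by linarith)) (sq_nonneg _)
  rw [norm_sub_rev] at h1
  linarith [norm_sub_le_norm_sub_add_norm_sub (A.ip (df A ω B) (x * df A ω B))
      (A.ip (df A ω B) (ph C x m * df A ω B)) (A.i0 ω (x * ω) * (π ^ 2 : ℝ)),
    norm_sub_le_norm_sub_add_norm_sub (A.ip (df A ω B) (ph C x m * df A ω B)) (z * (π ^ 2 : ℝ))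
      (A.i0 ω (x * ω) * (π ^ 2 : ℝ))]

/-- the quadratic form of the statistics -/
theorem quad (hs : Stk A ω B J' W κ π) (hW : 8 * (m + 1) * J ≤ W) (m1 : 1 ≤ m)
    (hE : m * E ≤ κ ^ 2 / 40 * π) (hm : 2⁻¹ ^ m ≤ E) (β0 : 0 ≤ β) (hβ : 5 * κ ≤ β ^ 2)
    (d : A.Deg g x) (n : ‖x‖ ≤ 1) (bx : A.Band J x) :
    A.hs (x * df A ω B) ≤ (A.n2 (x * ω) + β) * π := by
  have h1 := h.stat hs hW m1 hE hm (d.star_mul d) (norm_mul_le1 (by rwa [norm_star]) n)
    ((bx.star.mul bx).mono (by linarith))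
  rw [mul_assoc (star x), mul_assoc (star x), hs.hD.ip_mul (hs.hD.mul x), i0_mul, star_star,
    ip_self, i0_self, ← Complex.ofReal_mul, ← Complex.ofReal_sub, Complex.norm_real,
    Real.norm_eq_abs] at h1
  have h2 := (abs_le.1 h1).2
  have h3 := n2_nonneg (A := A) (x * ω)
  refine le_of_sq_le_sq ?_ (mul_nonneg (by linarith) hs.p0.le)
  nlinarith [mul_le_mul_of_nonneg_right hβ (sq_nonneg π),
    mul_nonneg (mul_nonneg h3 β0) (sq_nonneg π)]

/-- the defect almost kills the gauge -/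
theorem sing (hs : Stk A ω B J' W κ π) (hW : 2 * J ≤ W) (hE : E ≤ κ ^ 2 / 40 * π)
    (ht : ‖A.i0 ω (df A ω B * ω)‖ ≤ κ * π) : A.n2 (df A ω B * ω) ≤ 5 * κ * π := by
  have k0 := hs.k0
  have k1 := hs.k1
  have p0 := hs.p0
  have p1 := hs.p1
  have q0 : 0 ≤ κ ^ 2 * π := by positivity
  have q1 : κ ^ 2 * π ≤ κ * π := by nlinarith [mul_pos k0 p0]
  have q2 : κ * π ≤ π := by nlinarith
  have q3 : κ * π ≤ κ := by nlinarith
  have dδ := hs.dD.mul1 h.iso.deg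
  have cδ := col_mul h.iso.col (df A ω B)
  have h1 := edge h.iso h.mix h.θ0 h.two dδ cδ ((norm_mul_le _ _).trans
    ((mul_le_of_le_one_right (norm_nonneg _) h.iso.nrm).trans hs.nD))
    ((hs_eq_n2 cδ).symm.trans_le (hs.hs_right h.iso.deg h.iso.nrm)) (by linarith [h.θE]) ht
    h.s0 h.es
  have h2 : A.n2 (av fun a => C a * (df A ω B * ω) * A.V (c a)⁻¹ - df A ω B * ω) ≤
      κ * π + 2 * E := n2_av fun a => by
    have d1 := (h.one a).deg
    have h3 := hs.comm' d1 (h.one a).nrm (h.band a) h.J0 hW ((h.one a).l.trans (by linarith))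
    have H := (hs.hD.mul (C a)).sub (hs.hD.mul_right hs.dD d1)
    have d2 := (d1.mul1 hs.dD).sub (hs.dD.one_mul d1)
    have h4 := (H.mul_right d2 (h.iso.degV (c a)⁻¹)).n2_le.trans ((H.hs_mul_right1 d2
      (h.iso.degV (c a)⁻¹) (norm_mul_le1 h.iso.nrm (norm_V _))).trans h3)
    have h5 := (n2_mul _ _).trans (mul_le_mul hs.nD ((h.one a).err h.iso) (n2_nonneg _)
      zero_le_two)
    have e1 : C a * (df A ω B * ω) * A.V (c a)⁻¹ - df A ω B * ω =
        (C a * df A ω B - df A ω B * C a) * (ω * A.V (c a)⁻¹) +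
          df A ω B * (C a * ω * A.V (c a)⁻¹ - ω) := by noncomm_ring
    rw [e1]
    exact (n2_add _ _).trans (add_le_add h4 h5)
  rw [av_sub, av_const, n2_rev] at h2
  have h3 := n2_add (A := A) (df A ω B * ω - av fun a => C a * (df A ω B * ω) * A.V (c a)⁻¹)
    (av fun a => C a * (df A ω B * ω) * A.V (c a)⁻¹)
  rw [sub_add_cancel] at h3
  nlinarith [mul_le_mul_of_nonneg_right h.sκ p0.le,
    mul_le_mul_of_nonneg_right (show θ ≤ κ by linarith [h.θE]) p0.le]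

end Dat

theorem cmp_le (hω : A.Iso ω) (hw : A.Iso w) (h : A.n2 (ω - w) ≤ κ) :
    A.n2 (star w * ω - A.V 1) ≤ κ := by
  rw [← hw.iso, ← mul_sub]
  exact (n2_mul1 hw.nrm' _).trans h

theorem word_le (hω : A.Iso ω) (hw : A.Iso w) (h : A.n2 (ω - w) ≤ κ) (n : ‖y‖ ≤ 1)
    (cy : A.Cor y) (hx : A.n2 (x * ω - ω * A.V g) ≤ E) :
    A.n2 ((w * y * star w - x) * ω) ≤ A.n2 (y - A.V g) + 2 * κ + E := by
  have e : (w * y * star w - x) * ω = w * y * (star w * ω - A.V 1) + w * (y - A.V g) -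
      (ω - w) * A.V g - (x * ω - ω * A.V g) := by
    rw [mul_sub (w * y), mul_assoc w y (A.V 1), cy.col]
    noncomm_ring
  have h1 := (n2_mul1 (norm_mul_le1 hw.nrm n) _).trans (cmp_le hω hw h)
  have h2 := n2_mul1 (A := A) hw.nrm (y - A.V g)
  have h3 := (n2_V_le (hω.deg.sub hw.deg) g).trans h
  rw [e]
  linarith [n2_sub (A := A) (w * y * (star w * ω - A.V 1) + w * (y - A.V g) - (ω - w) * A.V g)
      (x * ω - ω * A.V g), n2_sub (A := A) (w * y * (star w * ω - A.V 1) + w * (y - A.V g))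
      ((ω - w) * A.V g), n2_add (A := A) (w * y * (star w * ω - A.V 1)) (w * (y - A.V g))]

end Vale.Agent.P092JF
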