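import Vale.Agent.P092ST.Rat

/-!
P092 (helper3), block B3, part JF: variations of a banded approximant of half a projection.
-/

set_option linter.all false

open scoped InnerProductSpace ENNReal ComplexConjugate
open MeasureTheory Filter Topology

namespace Vale.Agent.P092JF

open Vale.Agent.P092ST Vale.Agent.P092ST.Amb

variable {G Γ 𝒦 : Type} [Group G] [TopologicalSpace G] [Group Γ] [NormedAddCommGroup 𝒦]
  [InnerProductSpace ℂ 𝒦] [CompleteSpace 𝒦]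

/-- selfadjoint banded Hilbert-Schmidt contractions -/
structure Cl (A : Amb G Γ 𝒦) (J : ℝ) (B : 𝒦 →L[ℂ] 𝒦) : Prop where
  deg : A.Deg 1 B
  sa : star B = B
  nrm : ‖B‖ ≤ 1
  band : A.Band J B
  hs : A.HS B

/-- the defect -/
noncomputable def df (A : Amb G Γ 𝒦) (ω B : 𝒦 →L[ℂ] 𝒦) : 𝒦 →L[ℂ] 𝒦 := B - (2 : ℂ)⁻¹ • A.ζ ω 1

/-- approximants which cannot be improved -/
structure Stk (A : Amb G Γ 𝒦) (ω B : 𝒦 →L[ℂ] 𝒦) (J W κ π : ℝ) : Prop where
  iso : A.Iso ω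
  cl : Cl A J B
  pi : A.hs (df A ω B) = π
  stk : ∀ B', Cl A (J + W) B' → (1 - κ ^ 2 / 16) * π ≤ A.hs (df A ω B')
  k0 : 0 < κ
  k1 : κ ≤ 1 / 4
  p0 : 0 < π
  p1 : π ≤ 1
  J0 : 0 ≤ J
  W0 : 0 ≤ W

variable {A : Amb G Γ 𝒦} {ω B x y : 𝒦 →L[ℂ] 𝒦} {J W κ π E b : ℝ} {g : G}

theorem hs_add_sq (hx : A.HS x) (hy : A.HS y) :
    A.hs (x + y) ^ 2 = A.hs x ^ 2 + 2 * (A.ip x y).re + A.hs y ^ 2 := by
  rw [hs, hx.vec_add hy]
  exact norm_add_sq (𝕜 := ℂ) _ _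

theorem hs_sub_sq (hx : A.HS x) (hy : A.HS y) :
    A.hs (x - y) ^ 2 = A.hs x ^ 2 - 2 * (A.ip x y).re + A.hs y ^ 2 := by
  rw [hs, hx.vec_sub hy]
  exact norm_sub_sq (𝕜 := ℂ) _ _

theorem smul_ip (hx : A.HS x) (c : ℂ) (y : 𝒦 →L[ℂ] 𝒦) :
    A.ip (c • x) y = conj c * A.ip x y := by
  rw [ip, hx.vec_smul, inner_smul_left]
  rfl

theorem ip_av {α : Type} [Fintype α] {f : α → 𝒦 →L[ℂ] 𝒦} (h : ∀ i, A.HS (f i))
    (x : 𝒦 →L[ℂ] 𝒦) : A.ip x (av f) = av fun i => A.ip x (f i) := by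
  rw [ip, vec_av h, inner_av]
  rfl

theorem hs_rev (hx : A.HS x) (hy : A.HS y) : A.hs (x - y) = A.hs (y - x) := by
  rw [← (hx.sub hy).hs_neg, neg_sub]

theorem zeta_one (hω : A.Iso ω) : A.ζ ω 1 = ω * star ω := by rw [ζ, hω.col]

theorem conj_P (hω : A.Iso ω) (d : A.Deg g x) (n : ‖x‖ ≤ 1)
    (h : A.n2 (x * ω - ω * A.V g) ≤ E) : A.hs (x * A.ζ ω 1 * star x - A.ζ ω 1) ≤ 2 * E := by
  have dδ : A.Deg g (x * ω - ω * A.V g) := (d.mul1 hω.deg).sub (hω.degV g)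
  have c := hω.col_def x g
  have e : x * A.ζ ω 1 * star x - A.ζ ω 1 = (x * ω - ω * A.V g) * (star ω * star x) +
      ω * A.V g * star (x * ω - ω * A.V g) := by
    have e1 : ω * A.V g * (A.V g⁻¹ * star ω) = ω * star ω := by
      rw [mul_assoc, ← mul_assoc (A.V g), V_mul_inv, ← mul_assoc, hω.col]
    rw [zeta_one hω, star_sub, star_mul, star_mul, A.V_star, mul_sub, e1]
    noncomm_ring
  have h0 := hs_col c
  have d2 := hω.deg.star1.one_mul d.star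
  have h1 := h0.hs_mul_right1 dδ d2 (norm_mul_le1 hω.nrm' (by rwa [norm_star]))
  have h2 := (h0.star dδ).hs_mul1 (norm_mul_le1 hω.nrm (norm_V (A := A) g))
  rw [h0.hs_star dδ] at h2
  rw [hs_eq_n2 c] at h1 h2
  rw [e]
  linarith [(h0.mul_right dδ d2).hs_add ((h0.star dδ).mul (ω * A.V g))]

theorem Cl.conv {B' : 𝒦 →L[ℂ] 𝒦} (h : Cl A J B) (h' : Cl A J B') {s : ℝ} (s0 : 0 ≤ s)
    (s1 : s ≤ 1) : Cl A J (((1 - s : ℝ) : ℂ) • B + (s : ℂ) • B') := by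
  refine ⟨(h.deg.smul _).add (h'.deg.smul _), ?_, ?_, (h.band.smul _).add (h'.band.smul _),
    (h.hs.smul _).add (h'.hs.smul _)⟩
  · rw [star_add, star_smul, star_smul, h.sa, h'.sa, Complex.star_def, Complex.conj_ofReal,
      Complex.conj_ofReal]
  · refine (norm_add_le _ _).trans ?_
    rw [norm_smul, norm_smul, Complex.norm_real, Complex.norm_real, Real.norm_of_nonneg s0,
      Real.norm_of_nonneg (by linarith)]
    nlinarith [h.nrm, h'.nrm]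

theorem Cl.mono {J' : ℝ} (h : Cl A J B) (hJ : J ≤ J') : Cl A J' B :=
  ⟨h.deg, h.sa, h.nrm, h.band.mono hJ, h.hs⟩

theorem cl_zero (J : ℝ) : Cl A J 0 :=
  ⟨deg_zero _, star_zero _, by simp, band_zero _, hs_zero⟩

namespace Stk

variable (h : Stk A ω B J W κ π)
include h

theorem dD : A.Deg 1 (df A ω B) := h.cl.deg.sub ((h.iso.deg_ζ 1).smul _)

theorem hD : A.HS (df A ω B) := h.cl.hs.sub ((h.iso.hs_ζ 1).smul _)

theorem sD : star (df A ω B) = df A ω B := by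
  rw [df, star_sub, star_smul, h.cl.sa, star_ζ, inv_one]
  simp

theorem nD : ‖df A ω B‖ ≤ 2 := by
  refine (norm_sub_le _ _).trans ?_
  rw [norm_smul, norm_inv, Complex.norm_ofNat]
  linarith [h.cl.nrm, h.iso.norm_ζ 1]

theorem hs_left (n : ‖x‖ ≤ 1) : A.hs (x * df A ω B) ≤ π := (h.hD.hs_mul1 n).trans h.pi.le

theorem hs_right (d : A.Deg g x) (n : ‖x‖ ≤ 1) : A.hs (df A ω B * x) ≤ π :=
  (h.hD.hs_mul_right1 h.dD d n).trans h.pi.le

theorem hs_swap (d : A.Deg g x) : A.hs (df A ω B * star x) = A.hs (x * df A ω B) := by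
  rw [← (h.hD.mul x).hs_star (d.mul1 h.dD), star_mul, h.sD]

/-- conjugation by an operator which almost fixes the gauge -/
theorem cj (d : A.Deg g x) (n : ‖x‖ ≤ 1) (bx : A.Band b x) (b0 : 0 ≤ b) (bW : 2 * b ≤ W)
    (hx : A.n2 (x * ω - ω * A.V g) ≤ κ ^ 2 / 8 * π) :
    (1 - κ ^ 2 / 2) * π ^ 2 ≤ (A.ip (star x * df A ω B) (df A ω B * star x)).re := by
  have n' : ‖star x‖ ≤ 1 := by rwa [norm_star]
  have c1 : Cl A (J + W) (x * B * star x) :=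
    ⟨((d.mul1 h.cl.deg).mul d.star).cast (mul_inv_cancel g), by
      rw [star_mul, star_mul, star_star, h.cl.sa, mul_assoc],
      norm_mul_le1 (norm_mul_le1 n h.cl.nrm) n',
      ((bx.mul h.cl.band).mul bx.star).mono (by linarith),
      (h.cl.hs.mul x).mul_right (d.mul1 h.cl.deg) d.star⟩
  have h1 := h.stk _ ((h.cl.mono (by linarith [h.W0])).conv c1 (s := 1 / 2) (by norm_num)
    (by norm_num))
  have e : df A ω (((1 - 1 / 2 : ℝ) : ℂ) • B + ((1 / 2 : ℝ) : ℂ) • (x * B * star x)) =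
      (2 : ℂ)⁻¹ • (df A ω B + x * (df A ω B * star x)) +
        (4 : ℂ)⁻¹ • (x * A.ζ ω 1 * star x - A.ζ ω 1) := by
    simp only [df, sub_mul, mul_sub, smul_mul_assoc, mul_smul_comm, mul_assoc]
    push_cast
    module
  have hr := h.hD.mul_right h.dD d.star
  have hP := h.iso.hs_ζ 1
  have h2 := ((h.hD.add (hr.mul x)).smul (2 : ℂ)⁻¹).hs_add
    ((((hP.mul x).mul_right (d.mul1 (h.iso.deg_ζ 1)) d.star).sub hP).smul (4 : ℂ)⁻¹)
  rw [← e, (h.hD.add (hr.mul x)).hs_smul,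
    (((hP.mul x).mul_right (d.mul1 (h.iso.deg_ζ 1)) d.star).sub hP).hs_smul] at h2
  simp only [norm_inv, Complex.norm_ofNat] at h2
  have h3 := conj_P h.iso d n hx
  have h4 := hs_add_sq h.hD (hr.mul x)
  have h5 := pow_le_pow_left₀ (hs_nonneg _) ((hr.hs_mul1 n).trans (h.hs_right d.star n')) 2
  rw [h.hD.ip_mul hr, h.pi] at h4
  have k0 := h.k0
  have k1 := h.k1
  have p0 := h.p0
  have h6 : 2 * (1 - κ ^ 2 / 8) * π ≤ A.hs (df A ω B + x * (df A ω B * star x)) := by linarith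
  have h7 := pow_le_pow_left₀ (mul_nonneg (by nlinarith) p0.le) h6 2
  nlinarith [mul_nonneg (sq_nonneg (κ ^ 2)) (sq_nonneg π)]

theorem comm (d : A.Deg g x) (n : ‖x‖ ≤ 1) (bx : A.Band b x) (b0 : 0 ≤ b) (bW : 2 * b ≤ W)
    (hx : A.n2 (x * ω - ω * A.V g) ≤ κ ^ 2 / 8 * π) :
    A.hs (star x * df A ω B - df A ω B * star x) ≤ κ * π := by
  have n' : ‖star x‖ ≤ 1 := by rwa [norm_star]
  have h1 := h.cj d n bx b0 bW hx
  have h2 := hs_sub_sq (h.hD.mul (star x)) (h.hD.mul_right h.dD d.star)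
  have h3 := pow_le_pow_left₀ (hs_nonneg _) (h.hs_left n') 2
  have h4 := pow_le_pow_left₀ (hs_nonneg _) (h.hs_right d.star n') 2
  refine le_of_sq_le_sq ?_ (mul_pos h.k0 h.p0).le
  nlinarith

theorem comm' (d : A.Deg g x) (n : ‖x‖ ≤ 1) (bx : A.Band b x) (b0 : 0 ≤ b) (bW : 2 * b ≤ W)
    (hx : A.n2 (x * ω - ω * A.V g) ≤ κ ^ 2 / 8 * π) :
    A.hs (x * df A ω B - df A ω B * x) ≤ κ * π := by
  have h1 := h.comm d n bx b0 bW hx
  rw [← ((h.hD.mul _).sub (h.hD.mul_right h.dD d.star)).hs_star ((d.star.mul1 h.dD).sub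
    (h.dD.one_mul d.star)), star_sub, star_mul, star_mul, star_star, h.sD] at h1
  rwa [hs_rev (h.hD.mul x) (h.hD.mul_right h.dD d)]

theorem fix (d : A.Deg g x) (n : ‖x‖ ≤ 1) (bx : A.Band b x) (b0 : 0 ≤ b) (bW : 2 * b ≤ W)
    (hx : A.n2 (x * ω - ω * A.V g) ≤ κ ^ 2 / 8 * π) :
    A.hs (x * (df A ω B * star x) - df A ω B) ≤ κ * π := by
  have n' : ‖star x‖ ≤ 1 := by rwa [norm_star]
  have hr := h.hD.mul_right h.dD d.star
  have h1 := h.cj d n bx b0 bW hx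
  have h2 := hs_sub_sq h.hD (hr.mul x)
  have h3 := pow_le_pow_left₀ (hs_nonneg _) ((hr.hs_mul1 n).trans (h.hs_right d.star n')) 2
  rw [h.hD.ip_mul hr, h.pi] at h2
  rw [hs_rev (hr.mul x) h.hD]
  refine le_of_sq_le_sq ?_ (mul_pos h.k0 h.p0).le
  nlinarith

/-- an operator which almost kills the gauge almost kills the defect -/
theorem kill (d : A.Deg 1 x) (n : ‖x‖ ≤ 1) (bx : A.Band b x) (b0 : 0 ≤ b) (bW : 4 * b ≤ W)
    (hx : A.n2 (x * ω) ≤ κ ^ 2 / 8 * π) : A.hs (x * df A ω B) ≤ κ * π := by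
  have n' : ‖star x‖ ≤ 1 := by rwa [norm_star]
  have dz := deg_id.sub (d.star_mul d)
  have sz : star (1 - star x * x) = 1 - star x * x := by
    rw [star_sub, star_one, star_mul, star_star]
  have h1 := h.cj dz (norm_compl n) ((band_id.mono (by linarith)).sub (bx.star.mul bx))
    (by linarith) (by linarith) (by
      rw [h.iso.col, sub_mul, one_mul, n2_rev, sub_sub_cancel, mul_assoc]
      exact (n2_mul1 n' _).trans hx)
  rw [sz] at h1
  have h2 := ((Complex.re_le_norm _).trans (ip_le _ _)).trans (mul_le_mul_of_nonneg_left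
    (h.hs_right dz (norm_compl n)) (hs_nonneg (A := A) ((1 - star x * x) * df A ω B)))
  have h3 := hs_sub_sq h.hD ((h.hD.mul x).mul (star x))
  rw [h.hD.ip_mul (h.hD.mul x), star_star, re_ip_self, h.pi, ← mul_assoc, ← one_sub_mul] at h3
  have h4 := pow_le_pow_left₀ (hs_nonneg _) ((h.hD.mul x).hs_mul1 n') 2
  rw [← mul_assoc] at h4
  have k0 := h.k0
  have k1 := h.k1
  have p0 := h.p0
  have h5 : (1 - κ ^ 2 / 2) * π ≤ A.hs ((1 - star x * x) * df A ω B) :=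
    le_of_mul_le_mul_right (by nlinarith) p0
  have h6 := pow_le_pow_left₀ (mul_nonneg (by nlinarith) p0.le) h5 2
  refine le_of_sq_le_sq ?_ (mul_pos k0 p0).le
  nlinarith [mul_nonneg (sq_nonneg (κ ^ 2)) (sq_nonneg π)]

theorem scal_aux {σ : ℝ} (hσ : σ ^ 2 = 1) (h1 : (1 - κ ^ 2 / 8) * π ≤
    A.hs (((1 - κ * π : ℝ) : ℂ) • df A ω B + ((σ * (κ * π) / 2 : ℝ) : ℂ) • A.ζ ω 1)) :
    -(σ * (A.ip (df A ω B) (A.ζ ω 1)).re) ≤ κ * π := by
  have hP := h.iso.hs_ζ 1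
  have h2 := hs_add_sq (h.hD.smul ((1 - κ * π : ℝ) : ℂ)) (hP.smul ((σ * (κ * π) / 2 : ℝ) : ℂ))
  rw [h.hD.hs_smul, hP.hs_smul, smul_ip h.hD, hP.ip_smul, Complex.conj_ofReal,
    Complex.re_ofReal_mul, Complex.re_ofReal_mul, Complex.norm_real, Complex.norm_real, mul_pow,
    mul_pow, Real.norm_eq_abs, Real.norm_eq_abs, sq_abs, sq_abs, h.pi] at h2
  have k0 := h.k0
  have k1 := h.k1
  have p0 := h.p0
  have p1 := h.p1
  have h3 := pow_le_pow_left₀ (mul_nonneg (by nlinarith) p0.le) h1 2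
  have h4 := pow_le_one₀ (n := 2) (hs_nonneg _) (h.iso.hs_ζ_le 1)
  have s0 : 0 < κ * π := mul_pos k0 p0
  have s1 : κ * π ≤ 1 / 4 := by nlinarith
  have h5 : (σ * (κ * π) / 2) ^ 2 * A.hs (A.ζ ω 1) ^ 2 ≤ (κ * π) ^ 2 / 4 := by
    rw [div_pow, mul_pow, hσ]
    nlinarith [sq_nonneg (κ * π)]
  have h6 : (1 - κ * π) ^ 2 * π ^ 2 ≤ π ^ 2 :=
    mul_le_of_le_one_left (sq_nonneg _) (by nlinarith)
  generalize (A.ip (df A ω B) (A.ζ ω 1)).re = r at *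
  have h7 : (κ * π) * ((1 - κ * π) * -(σ * r)) ≤ (κ * π) * (κ * π / 2) := by
    nlinarith [mul_nonneg (sq_nonneg (κ ^ 2)) (sq_nonneg π)]
  have h8 := le_of_mul_le_mul_left h7 s0
  by_contra hc
  rw [not_le] at hc
  nlinarith

/-- the scalar part of the defect is small -/
theorem scal {A₀ : 𝒦 →L[ℂ] 𝒦} (h0 : Cl A W A₀) (h1 : A.hs (A₀ - A.ζ ω 1) ≤ κ / 16) :
    ‖A.i0 ω (df A ω B * ω)‖ ≤ κ * π := by
  have k0 := h.k0
  have k1 := h.k1
  have p0 := h.p0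
  have p1 := h.p1
  have s0 : 0 < κ * π := mul_pos k0 p0
  have s1 : κ * π ≤ 1 := by nlinarith
  have hP := h.iso.hs_ζ 1
  have cB := h.cl.mono (le_add_of_nonneg_right h.W0)
  have h2 := h.scal_aux (σ := -1) (by norm_num) (by
    have h3 := h.stk _ (cB.conv (cl_zero _) s0.le s1)
    have e : df A ω (((1 - κ * π : ℝ) : ℂ) • B + ((κ * π : ℝ) : ℂ) • 0) =
        ((1 - κ * π : ℝ) : ℂ) • df A ω B + ((-1 * (κ * π) / 2 : ℝ) : ℂ) • A.ζ ω 1 := by
      simp only [df]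
      push_cast
      module
    rw [e] at h3
    nlinarith [mul_nonneg (sq_nonneg κ) p0.le])
  have h3 := h.scal_aux (σ := 1) (by norm_num) (by
    have h3 := h.stk _ (cB.conv (h0.mono (le_add_of_nonneg_left h.J0)) s0.le s1)
    have e : df A ω (((1 - κ * π : ℝ) : ℂ) • B + ((κ * π : ℝ) : ℂ) • A₀) =
        (((1 - κ * π : ℝ) : ℂ) • df A ω B + ((1 * (κ * π) / 2 : ℝ) : ℂ) • A.ζ ω 1) +
          ((κ * π : ℝ) : ℂ) • (A₀ - A.ζ ω 1) := by
      simp only [df]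
      push_cast
      module
    have h4 := ((h.hD.smul ((1 - κ * π : ℝ) : ℂ)).add
      (hP.smul ((1 * (κ * π) / 2 : ℝ) : ℂ))).hs_add ((h0.hs.sub hP).smul ((κ * π : ℝ) : ℂ))
    rw [← e, (h0.hs.sub hP).hs_smul, Complex.norm_real, Real.norm_of_nonneg s0.le] at h4
    nlinarith [mul_le_mul_of_nonneg_left h1 s0.le])
  have hω := hs_col h.iso.col
  have e1 : A.ip (df A ω B) (A.ζ ω 1) = A.i0 ω (df A ω B * ω) := by
    rw [zeta_one h.iso, h.hD.ip_mul_right (g := 1) (h := 1) hω (h.dD.cast (mul_one 1).symm)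
      h.iso.deg h.iso.deg.star1, star_star, ip_col' (hω.mul _) h.iso.col, i0_mul, h.sD]
  have e2 : conj (A.i0 ω (df A ω B * ω)) = A.i0 ω (df A ω B * ω) := by
    rw [i0_conj, i0_mul ω, h.sD]
  rw [e1] at h2 h3
  rw [← Complex.conj_eq_iff_re.1 e2, Complex.norm_real, Real.norm_eq_abs, abs_le]
  exact ⟨by linarith, by linarith⟩

end Stk

end Vale.Agent.P092JF
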